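import Mathlib

/-!
# Graded differential spaces

A `GD` is a complex vector space with an endomorphism `d` of square zero and subspaces `gr m`,
`m : ℤ`, with `d (gr m) ⊆ gr (m + 1)`.  It is not required that the space is the sum or the product
of the subspaces `gr m`; the cohomology is that of the complex `gr m`.
-/

namespace Vale.Agent.P286.H847

/-- A graded differential space. -/
structure GD : Type 1 where
  V : Type
  [grp : AddCommGroup V]
  [mod : Module ℂ V]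
  d : V →ₗ[ℂ] V
  dd : ∀ x, d (d x) = 0
  gr : ℤ → Submodule ℂ V
  dgr : ∀ (m : ℤ) (x : V), x ∈ gr m → d x ∈ gr (m + 1)

attribute [instance] GD.grp GD.mod

namespace GD

theorem dgr' (M : GD) {m n : ℤ} (h : n = m + 1) {x : M.V} (hx : x ∈ M.gr m) : M.d x ∈ M.gr n :=
  h ▸ M.dgr m x hx

/-- A morphism of graded differential spaces. -/
structure Hom (M N : GD) where
  f : M.V →ₗ[ℂ] N.V
  comm : ∀ x, f (M.d x) = N.d (f x)
  deg : ∀ (m : ℤ) (x : M.V), x ∈ M.gr m → f x ∈ N.gr m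

/-- The complex `gr m` is exact. -/
def Exact (M : GD) : Prop :=
  ∀ (m : ℤ) (x : M.V), x ∈ M.gr m → M.d x = 0 → ∃ y ∈ M.gr (m - 1), M.d y = x

/-- The linear map `f` induces bijections on cohomology. -/
def Qis {M N : GD} (u : Hom M N) : Prop :=
  ∀ m : ℤ,
    (∀ x ∈ M.gr m, M.d x = 0 → (∃ y ∈ N.gr (m - 1), N.d y = u.f x) →
      ∃ x' ∈ M.gr (m - 1), M.d x' = x) ∧
    (∀ y ∈ N.gr m, N.d y = 0 →
      ∃ x ∈ M.gr m, M.d x = 0 ∧ ∃ y' ∈ N.gr (m - 1), N.d y' = y - u.f x)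

/-- The identity. -/
def Hom.id (M : GD) : Hom M M := ⟨LinearMap.id, fun _ => rfl, fun _ _ h => h⟩

/-- The composition. -/
def Hom.comp {M N P : GD} (v : Hom N P) (u : Hom M N) : Hom M P :=
  ⟨v.f.comp u.f, fun x => by simp [u.comm, v.comm], fun m x h => v.deg m _ (u.deg m x h)⟩

theorem Qis.id (M : GD) : Qis (Hom.id M) := by
  intro m
  refine ⟨?_, ?_⟩
  · rintro x hx hd ⟨y, hy, h⟩
    exact ⟨y, hy, h⟩
  · intro y hy hd
    exact ⟨y, hy, hd, 0, zero_mem _, by simp [Hom.id]⟩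

theorem Qis.comp {M N P : GD} {v : Hom N P} {u : Hom M N} (hv : Qis v) (hu : Qis u) :
    Qis (v.comp u) := by
  intro m
  refine ⟨?_, ?_⟩
  · rintro x hx hd ⟨y, hy, h⟩
    have h1 := (hv m).1 (u.f x) (u.deg m x hx) (by rw [← u.comm, hd, map_zero]) ⟨y, hy, h⟩
    exact (hu m).1 x hx hd h1
  · intro y hy hd
    obtain ⟨x, hx, hdx, y', hy', e⟩ := (hv m).2 y hy hd
    obtain ⟨w, hw, hdw, x', hx', e'⟩ := (hu m).2 x hx hdx
    refine ⟨w, hw, hdw, y' + v.f x', add_mem hy' (v.deg _ _ hx'), ?_⟩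
    rw [map_add, e, ← v.comm, e', map_sub]
    change y - v.f x + (v.f x - v.f (u.f w)) = y - v.f (u.f w)
    abel

/-- If `v` and `v ∘ u` are quasi-isomorphisms, then so is `u`. -/
theorem Qis.of_comp_left {M N P : GD} {v : Hom N P} {u : Hom M N} (hv : Qis v)
    (h : Qis (v.comp u)) : Qis u := by
  intro m
  refine ⟨?_, ?_⟩
  · rintro x hx hd ⟨y, hy, e⟩
    refine (h m).1 x hx hd ⟨v.f y, v.deg _ _ hy, ?_⟩
    rw [← v.comm, e]
    rfl
  · intro y hy hd
    have hd' : P.d (v.f y) = 0 := by rw [← v.comm, hd, map_zero]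
    obtain ⟨x, hx, hdx, z, hz, e⟩ := (h m).2 (v.f y) (v.deg _ _ hy) hd'
    have e2 : P.d z = v.f (y - u.f x) := by rw [e, map_sub]; rfl
    obtain ⟨y', hy', e'⟩ := (hv m).1 (y - u.f x) (sub_mem hy (u.deg _ _ hx))
      (by rw [map_sub, hd, ← u.comm, hdx, map_zero, sub_zero]) ⟨z, hz, e2⟩
    exact ⟨x, hx, hdx, y', hy', e'⟩

/-- If `u` and `v ∘ u` are quasi-isomorphisms, then so is `v`. -/
theorem Qis.of_comp_right {M N P : GD} {v : Hom N P} {u : Hom M N} (hu : Qis u)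
    (h : Qis (v.comp u)) : Qis v := by
  intro m
  refine ⟨?_, ?_⟩
  · rintro y hy hd ⟨z, hz, e⟩
    obtain ⟨x, hx, hdx, y', hy', e'⟩ := (hu m).2 y hy hd
    have e3 : v.f (u.f x) = v.f y - v.f (N.d y') := by rw [e', map_sub]; abel
    obtain ⟨x', hx', e2⟩ := (h m).1 x hx hdx ⟨z - v.f y', sub_mem hz (v.deg _ _ hy'), by
      rw [map_sub, e, ← v.comm]
      exact e3.symm⟩
    refine ⟨u.f x' + y', add_mem (u.deg _ _ hx') hy', ?_⟩
    rw [map_add, ← u.comm, e2, e']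
    abel
  · intro y hy hd
    obtain ⟨x, hx, hdx, z, hz, e⟩ := (h m).2 y hy hd
    exact ⟨u.f x, u.deg _ _ hx, by rw [← u.comm, hdx, map_zero], z, hz, e⟩

/-- The cone. -/
abbrev Cone {M N : GD} (u : Hom M N) : GD where
  V := N.V × M.V
  d := (N.d.comp (LinearMap.fst ℂ N.V M.V) + u.f.comp (LinearMap.snd ℂ N.V M.V)).prod
    (-(M.d.comp (LinearMap.snd ℂ N.V M.V)))
  dd x := by
    ext
    · simp [N.dd, u.comm]
    · simp [M.dd]
  gr m := (N.gr m).prod (M.gr (m + 1))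
  dgr m x hx := by
    refine ⟨?_, ?_⟩
    · exact add_mem (N.dgr m _ hx.1) (u.deg _ _ hx.2)
    · exact neg_mem (M.dgr _ _ hx.2)

theorem cone_d {M N : GD} (u : Hom M N) (x : N.V × M.V) :
    (Cone u).d x = (N.d x.1 + u.f x.2, -(M.d x.2)) := rfl

theorem qis_iff_exact_cone {M N : GD} (u : Hom M N) : Qis u ↔ (Cone u).Exact := by
  constructor
  · intro h m x hx hd
    have h1 : N.d x.1 + u.f x.2 = 0 := congrArg Prod.fst hd
    have h2 : M.d x.2 = 0 := neg_eq_zero.1 (congrArg Prod.snd hd)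
    have hx1 : x.1 ∈ N.gr m := hx.1
    have hx2 : x.2 ∈ M.gr (m + 1) := hx.2
    obtain ⟨a, ha, ea⟩ := (h (m + 1)).1 x.2 hx2 h2 ⟨-x.1, by simpa using hx1, by
      rw [map_neg, neg_eq_iff_add_eq_zero, h1]⟩
    have ha' : a ∈ M.gr m := by simpa using ha
    obtain ⟨b, hb, hdb, c, hc, ec⟩ := (h m).2 (x.1 + u.f a) (add_mem hx1 (u.deg _ _ ha')) (by
      rw [map_add, ← u.comm, ea, h1])
    refine ⟨((c, b - a) : N.V × M.V), ⟨hc, by simpa using sub_mem hb ha'⟩, ?_⟩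
    rw [cone_d]
    refine Prod.ext ?_ ?_
    · simp [ec]
    · simp [hdb, ea]
  · intro h m
    refine ⟨?_, ?_⟩
    · rintro x hx hd ⟨y, hy, e⟩
      have hh : ((-y, x) : N.V × M.V) ∈ (Cone u).gr (m - 1) := ⟨neg_mem hy, by simpa using hx⟩
      obtain ⟨z, hz, ez⟩ := h (m - 1) ((-y, x) : N.V × M.V) hh (by
        rw [cone_d]
        refine Prod.ext ?_ ?_
        · simp [e]
        · simp [hd])
      have e2 : -(M.d z.2) = x := congrArg Prod.snd ez
      have hz2 : z.2 ∈ M.gr (m - 1 - 1 + 1) := hz.2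
      refine ⟨-z.2, ?_, by simpa using e2⟩
      rw [show m - 1 - 1 + 1 = m - 1 by ring] at hz2
      exact neg_mem hz2
    · intro y hy hd
      obtain ⟨z, hz, ez⟩ := h m ((y, 0) : N.V × M.V) ⟨hy, zero_mem _⟩ (by
        rw [cone_d]
        refine Prod.ext ?_ ?_
        · simp [hd]
        · simp)
      have e1 : N.d z.1 + u.f z.2 = y := congrArg Prod.fst ez
      have e2 : -(M.d z.2) = 0 := congrArg Prod.snd ez
      have hz1 : z.1 ∈ N.gr (m - 1) := hz.1
      have hz2 : z.2 ∈ M.gr (m - 1 + 1) := hz.2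
      rw [show m - 1 + 1 = m by ring] at hz2
      exact ⟨z.2, hz2, neg_eq_zero.1 e2, z.1, hz1, by rw [← e1]; abel⟩

/-- A contractible graded differential space is exact. -/
theorem Exact.of_htpy {M : GD} (s : M.V →ₗ[ℂ] M.V)
    (hs : ∀ m, ∀ x ∈ M.gr m, s x ∈ M.gr (m - 1)) (h : ∀ x, M.d (s x) + s (M.d x) = x) :
    M.Exact := by
  intro m x hx hd
  exact ⟨s x, hs m x hx, by simpa [hd] using h x⟩

/-- A homotopy equivalence (with homotopies on both sides) is a quasi-isomorphism. -/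
theorem Qis.of_htpy {M N : GD} (u : Hom M N) (v : Hom N M)
    (s : M.V →ₗ[ℂ] M.V) (hs : ∀ m, ∀ x ∈ M.gr m, s x ∈ M.gr (m - 1))
    (h : ∀ m, ∀ x ∈ M.gr m, M.d (s x) + s (M.d x) = x - v.f (u.f x))
    (t : N.V →ₗ[ℂ] N.V) (ht : ∀ m, ∀ x ∈ N.gr m, t x ∈ N.gr (m - 1))
    (k : ∀ m, ∀ x ∈ N.gr m, N.d (t x) + t (N.d x) = x - u.f (v.f x)) : Qis u := by
  intro m
  refine ⟨?_, ?_⟩
  · rintro x hx hd ⟨y, hy, e⟩
    refine ⟨s x + v.f y, add_mem (hs m x hx) (v.deg _ _ hy), ?_⟩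
    have := h m x hx
    rw [hd, map_zero, add_zero] at this
    rw [map_add, this, ← v.comm, e]
    abel
  · intro y hy hd
    have := k m y hy
    rw [hd, map_zero, add_zero] at this
    exact ⟨v.f y, v.deg _ _ hy, by rw [← v.comm, hd, map_zero], t y, ht m y hy, this⟩

section Levels

variable {E : ℕ → Type} [∀ k, AddCommGroup (E k)] [∀ k, Module ℂ (E k)]

omit [∀ k, Module ℂ (E k)] in
/-- The truncation of a family. -/
def trunc (n : ℕ) (w : ∀ k, E k) : ∀ k, E k := fun k => if k < n then w k else 0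

omit [∀ k, Module ℂ (E k)] in
theorem trunc_succ (n : ℕ) (w : ∀ k, E k) :
    trunc (n + 1) w = trunc n w + Pi.single n (w n) := by
  funext k
  rcases lt_trichotomy k n with h | h | h
  · simp [trunc, h, h.trans (Nat.lt_succ_self n), h.ne]
  · subst h; simp [trunc]
  · simp [trunc, not_lt.2 h.le, not_lt.2 (Nat.succ_le_of_lt h), h.ne']

/-- Exactness of a product total complex, from the exactness of the levels.  The differential `D`
is lower triangular. -/
theorem exact_levels (D : (∀ k, E k) →ₗ[ℂ] (∀ k, E k)) (δ : ∀ k, E k →ₗ[ℂ] E k)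
    (G : ∀ k, ℤ → Submodule ℂ (E k)) (hDD : ∀ v, D (D v) = 0)
    (htri : ∀ (v : ∀ k, E k) (k : ℕ), (∀ j < k, v j = 0) →
      (∀ j < k, D v j = 0) ∧ D v k = δ k (v k))
    (hdeg : ∀ (v : ∀ k, E k) (m : ℤ), (∀ k, v k ∈ G k m) → ∀ k, D v k ∈ G k (m + 1))
    (hex : ∀ (k : ℕ) (m : ℤ), ∀ x ∈ G k m, δ k x = 0 → ∃ y ∈ G k (m - 1), δ k y = x)
    (m : ℤ) (v : ∀ k, E k) (hv : ∀ k, v k ∈ G k m) (hD : D v = 0) :
    ∃ w : ∀ k, E k, (∀ k, w k ∈ G k (m - 1)) ∧ D w = v := by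
  classical
  -- the step
  have step : ∀ (k : ℕ) (u : ∀ k, E k), (∀ j, u j ∈ G j m) → D u = 0 → (∀ j < k, u j = 0) →
      ∃ y ∈ G k (m - 1), ∀ j < k + 1, (u - D (Pi.single k y)) j = 0 := by
    intro k u hu hDu h0
    have hc : δ k (u k) = 0 := by rw [← (htri u k h0).2, hDu]; rfl
    obtain ⟨y, hy, e⟩ := hex k m (u k) (hu k) hc
    refine ⟨y, hy, fun j hj => ?_⟩
    have hs : ∀ j < k, (Pi.single k y : ∀ k, E k) j = 0 := fun j hj => by simp [hj.ne]
    rcases Nat.lt_succ_iff_lt_or_eq.1 hj with h | rfl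
    · simp [h0 j h, (htri _ k hs).1 j h]
    · have := (htri _ j hs).2
      simp only [Pi.single_eq_same] at this
      simp [this, e]
  -- partial solutions
  have hsg : ∀ (k : ℕ) (y : E k), y ∈ G k (m - 1) → ∀ j, (Pi.single k y : ∀ k, E k) j ∈ G j (m - 1) := by
    intro k y hy j
    by_cases h : j = k
    · subst h; simpa using hy
    · simp [h]
  let P : ℕ → (∀ k, E k) → Prop := fun k u =>
    (∀ j, u j ∈ G j m) ∧ D u = 0 ∧ ∀ j < k, u j = 0
  have next : ∀ (k : ℕ) (u : ∀ k, E k), P k u → ∃ y : E k, y ∈ G k (m - 1) ∧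
      P (k + 1) (u - D (Pi.single k y)) := by
    intro k u hu
    obtain ⟨y, hy, e⟩ := step k u hu.1 hu.2.1 hu.2.2
    refine ⟨y, hy, ?_, ?_, e⟩
    · intro j
      have h1 := hdeg _ _ (hsg k y hy) j
      rw [sub_add_cancel] at h1
      exact sub_mem (hu.1 j) h1
    · rw [map_sub, hDD, hu.2.1, sub_zero]
  choose! y hy hP using next
  let r : ∀ k : ℕ, {u : ∀ k, E k // P k u} := fun k => Nat.rec ⟨v, hv, hD, by simp⟩
    (fun k u => ⟨u.1 - D (Pi.single k (y k u.1)), hP k u.1 u.2⟩) k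
  have hr0 : (r 0).1 = v := rfl
  have hrs : ∀ k, (r (k + 1)).1 = (r k).1 - D (Pi.single k (y k (r k).1)) := fun k => rfl
  let w : ∀ k, E k := fun k => y k (r k).1
  have hw : ∀ k, (r k).1 = v - D (trunc k w) := by
    intro k
    induction k with
    | zero =>
      have : trunc 0 w = 0 := by funext j; simp [trunc]
      rw [this, map_zero, sub_zero, hr0]
    | succ k ih =>
      have h1 : y k (r k).1 = w k := rfl
      rw [hrs, h1, ih, trunc_succ, map_add, sub_sub]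
  refine ⟨w, fun k => hy k _ (r k).2, ?_⟩
  funext k
  have h1 : (v - D (trunc (k + 1) w)) k = 0 := by
    rw [← hw (k + 1)]
    exact (r (k + 1)).2.2.2 k (Nat.lt_succ_self k)
  have h2 : ∀ j < k + 1, (w - trunc (k + 1) w) j = 0 := by
    intro j hj
    simp [trunc, hj]
  have h3 := (htri _ (k + 1) h2).1 k (Nat.lt_succ_self k)
  rw [map_sub] at h3
  have h4 : D w k = D (trunc (k + 1) w) k := sub_eq_zero.1 h3
  have h5 : v k = D (trunc (k + 1) w) k := sub_eq_zero.1 h1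
  rw [h4, h5]

end Levels

end GD

end Vale.Agent.P286.H847
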