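import Vale.Agent.P286.H527.BrF
import Vale.Agent.P286.H847.GD

/-!
# Families of graded differential spaces on a test category, with functions and vector fields
-/

namespace Vale.Agent.P286.H847

open CategoryTheory St

noncomputable section

/-- A family of graded differential spaces on the test objects, with the structure of a complex of
(twisted) `D`-modules. -/
structure GTD (T : TSite) where
  F : T.C → GD
  fn : ∀ X : T.C, T.R X → (F X).V →ₗ[ℂ] (F X).V
  vf : ∀ X : T.C, (T.A X).Der → (F X).V →ₗ[ℂ] (F X).V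
  tr : ∀ {X Y : T.C}, (X ⟶ Y) → GD.Hom (F X) (F Y)
  fn_gr : ∀ (X : T.C) (a : T.R X) (m : ℤ) (x : (F X).V), x ∈ (F X).gr m → fn X a x ∈ (F X).gr m
  vf_gr : ∀ (X : T.C) (v : (T.A X).Der) (m : ℤ) (x : (F X).V),
    x ∈ (F X).gr m → vf X v x ∈ (F X).gr m
  fn_d : ∀ (X : T.C) (a : T.R X) (x : (F X).V), (F X).d (fn X a x) = fn X a ((F X).d x)
  vf_d : ∀ (X : T.C) (v : (T.A X).Der) (x : (F X).V), (F X).d (vf X v x) = vf X v ((F X).d x)
  dmod : ∀ X : T.C, IsDMod (fun a => fn X a) (fun v => vf X v)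
  trans : ∀ (X Y : T.C) (φ : X ⟶ Y), IsTrans T.s (T.f φ) (T.dl φ)
    (fun a => fn X a) (fun v => vf X v) (fun a => fn Y a) (fun v => vf Y v) (tr φ).f
  id : ∀ (X : T.C) (x : (F X).V), (tr (𝟙 X)).f x = x
  comp : ∀ (X Y Z : T.C) (φ : X ⟶ Y) (ψ : Y ⟶ Z) (x : (F X).V),
    (tr (φ ≫ ψ)).f x = (tr ψ).f ((tr φ).f x)
  cen : ∀ (X : T.C) (φ : X ⟶ X), φ ∈ T.cen X → ∀ x : (F X).V, (tr φ).f x = x

namespace GTD

variable {T : TSite}

/-- Cochains of degree `n`. -/
@[ext]
structure Coch (F F' : GTD T) (n : ℤ) where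
  f : ∀ X : T.C, (F.F X).V →ₗ[ℂ] (F'.F X).V
  deg : ∀ (X : T.C) (m : ℤ) (x : (F.F X).V), x ∈ (F.F X).gr m → f X x ∈ (F'.F X).gr (m + n)
  fn : ∀ (X : T.C) (a : T.R X) (x : (F.F X).V), f X (F.fn X a x) = F'.fn X a (f X x)
  vf : ∀ (X : T.C) (v : (T.A X).Der) (x : (F.F X).V), f X (F.vf X v x) = F'.vf X v (f X x)
  tr : ∀ {X Y : T.C} (φ : X ⟶ Y) (x : (F.F X).V), f Y ((F.tr φ).f x) = (F'.tr φ).f (f X x)

namespace Coch

variable {F F' F'' : GTD T} {n : ℤ}

instance : Zero (Coch F F' n) := ⟨⟨fun _ => 0, fun _ _ _ _ => zero_mem _, by simp, by simp, by simp⟩⟩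

instance : Add (Coch F F' n) := ⟨fun z w => ⟨fun X => z.f X + w.f X,
  fun X m x h => add_mem (z.deg X m x h) (w.deg X m x h), by simp [z.fn, w.fn],
  by simp [z.vf, w.vf], by simp [z.tr, w.tr]⟩⟩

instance : Neg (Coch F F' n) := ⟨fun z => ⟨fun X => - z.f X,
  fun X m x h => neg_mem (z.deg X m x h), by simp [z.fn], by simp [z.vf], by simp [z.tr]⟩⟩

instance : Sub (Coch F F' n) := ⟨fun z w => ⟨fun X => z.f X - w.f X,
  fun X m x h => sub_mem (z.deg X m x h) (w.deg X m x h), by simp [z.fn, w.fn],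
  by simp [z.vf, w.vf], by simp [z.tr, w.tr]⟩⟩

instance : SMul ℂ (Coch F F' n) := ⟨fun c z => ⟨fun X => c • z.f X,
  fun X m x h => Submodule.smul_mem _ c (z.deg X m x h), by simp [z.fn], by simp [z.vf],
  by simp [z.tr]⟩⟩

instance : SMul ℕ (Coch F F' n) := ⟨nsmulRec⟩
instance : SMul ℤ (Coch F F' n) := ⟨zsmulRec⟩

@[simp] theorem zero_f (X : T.C) : (0 : Coch F F' n).f X = 0 := rfl
@[simp] theorem add_f (z w : Coch F F' n) (X : T.C) : (z + w).f X = z.f X + w.f X := rfl
@[simp] theorem neg_f (z : Coch F F' n) (X : T.C) : (-z).f X = - z.f X := rfl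
@[simp] theorem sub_f (z w : Coch F F' n) (X : T.C) : (z - w).f X = z.f X - w.f X := rfl
@[simp] theorem smul_f (c : ℂ) (z : Coch F F' n) (X : T.C) : (c • z).f X = c • z.f X := rfl

theorem ext' {z w : Coch F F' n} (h : ∀ X x, z.f X x = w.f X x) : z = w :=
  Coch.ext (funext fun X => LinearMap.ext (h X))

instance : AddCommGroup (Coch F F' n) where
  add_assoc f g h := by apply ext'; intro X x; simp [add_assoc]
  zero_add f := by apply ext'; intro X x; simp
  add_zero f := by apply ext'; intro X x; simp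
  neg_add_cancel f := by apply ext'; intro X x; simp
  add_comm f g := by apply ext'; intro X x; simp [add_comm]
  sub_eq_add_neg f g := by apply ext'; intro X x; simp [sub_eq_add_neg]
  nsmul := nsmulRec
  zsmul := zsmulRec

instance : Module ℂ (Coch F F' n) where
  one_smul f := by apply ext'; intro X x; simp
  mul_smul c c' f := by apply ext'; intro X x; simp [mul_smul]
  smul_zero c := by apply ext'; intro X x; simp
  smul_add c f g := by apply ext'; intro X x; simp
  add_smul c c' f := by apply ext'; intro X x; simp [add_smul]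
  zero_smul f := by apply ext'; intro X x; simp

/-- The identity. -/
def one (F : GTD T) : Coch F F 0 :=
  ⟨fun _ => LinearMap.id, fun _ m x h => by simpa using h, fun _ _ _ => rfl, fun _ _ _ => rfl,
    fun _ _ => rfl⟩

/-- The composition (first `z`, then `w`). -/
def cmp {m n p : ℤ} (z : Coch F F' m) (w : Coch F' F'' n) (h : m + n = p) : Coch F F'' p :=
  ⟨fun X => (w.f X).comp (z.f X), fun X k x hx => by
      have := w.deg X _ _ (z.deg X k x hx)
      rwa [add_assoc, h] at this,
    fun X a x => by simp [z.fn, w.fn], fun X a x => by simp [z.vf, w.vf],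
    fun φ x => by simp [z.tr, w.tr]⟩

/-- The differential of cochains. -/
def dl {n p : ℤ} (z : Coch F F' n) (h : n + 1 = p) : Coch F F' p :=
  ⟨fun X => (F'.F X).d.comp (z.f X) - (n.negOnePow : ℤ) • (z.f X).comp (F.F X).d,
    fun X k x hx => by
      have h1 := (F'.F X).dgr' (n := k + p) (by omega) (z.deg X k x hx)
      have h2 := z.deg X _ _ ((F.F X).dgr k x hx)
      rw [show k + 1 + n = k + p by omega] at h2
      exact sub_mem h1 (zsmul_mem h2 _),
    fun X a x => by
      simp only [LinearMap.sub_apply, LinearMap.comp_apply, LinearMap.smul_apply, z.fn, F.fn_d,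
        F'.fn_d, map_sub, map_zsmul],
    fun X a x => by
      simp only [LinearMap.sub_apply, LinearMap.comp_apply, LinearMap.smul_apply, z.vf, F.vf_d,
        F'.vf_d, map_sub, map_zsmul],
    fun {X Y} φ x => by
      simp only [LinearMap.sub_apply, LinearMap.comp_apply, LinearMap.smul_apply, map_sub,
        map_zsmul]
      rw [z.tr, ← (F'.tr φ).comm, ← (F.tr φ).comm, z.tr]⟩

end Coch

/-! ### The complex defined by a family -/

/-- The homogeneous sections, as an object of the category of vector spaces. -/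
def ob (F : GTD T) (m : ℤ) (X : T.C) : ModuleCat.{0} ℂ := ModuleCat.of ℂ ((F.F X).gr m)

/-- The linear map defined by an arrow. -/
def arr (F : GTD T) (m : ℤ) : ∀ {X Y : T.C}, Arr T X Y → (F.ob m X ⟶ F.ob m Y)
  | X, Y, .tr φ => ModuleCat.ofHom (((F.tr φ).f).restrict (p := (F.F X).gr m)
            (q := (F.F Y).gr m) (fun x hx => (F.tr φ).deg m x hx))
  | X, _, .fn a => ModuleCat.ofHom ((F.fn X a).restrict (p := (F.F X).gr m)
            (q := (F.F X).gr m) (fun x hx => F.fn_gr X a m x hx))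
  | X, _, .vf v => ModuleCat.ofHom ((F.vf X v).restrict (p := (F.F X).gr m)
            (q := (F.F X).gr m) (fun x hx => F.vf_gr X v m x hx))

/-- The representation. -/
def pre (F : GTD T) (m : ℤ) : Pre T :=
  Paths.lift (V := Vx T) { obj := fun X => F.ob m X, map := fun e => F.arr m e }

/-- The inclusion of the homogeneous sections. -/
def val (F : GTD T) (m : ℤ) (X : T.C) : (F.pre m).S X →ₗ[ℂ] (F.F X).V := ((F.F X).gr m).subtype

theorem val_mem (F : GTD T) (m : ℤ) (X : T.C) (x : (F.pre m).S X) : F.val m X x ∈ (F.F X).gr m :=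
  Subtype.property (p := fun z => z ∈ (F.F X).gr m) x

theorem val_inj (F : GTD T) {m : ℤ} {X : T.C} {x y : (F.pre m).S X}
    (h : F.val m X x = F.val m X y) : x = y :=
  Subtype.ext (p := fun z => z ∈ (F.F X).gr m) h

/-- The section defined by a homogeneous element. -/
def el (F : GTD T) {m : ℤ} {X : T.C} (x : (F.F X).V) (h : x ∈ (F.F X).gr m) : (F.pre m).S X :=
  (⟨x, h⟩ : (F.F X).gr m)

@[simp] theorem val_el (F : GTD T) {m : ℤ} {X : T.C} (x : (F.F X).V) (h : x ∈ (F.F X).gr m) :
    F.val m X (F.el x h) = x := rfl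

@[simp] theorem el_val (F : GTD T) {m : ℤ} {X : T.C} (x : (F.pre m).S X) :
    F.el (F.val m X x) (F.val_mem m X x) = x := rfl

theorem val_tr (F : GTD T) (m : ℤ) {X Y : T.C} (φ : X ⟶ Y) (x : (F.pre m).S X) :
    F.val m Y ((F.pre m).tr φ x) = (F.tr φ).f (F.val m X x) := rfl

theorem val_fn (F : GTD T) (m : ℤ) (X : T.C) (a : T.R X) (x : (F.pre m).S X) :
    F.val m X ((F.pre m).fn X a x) = F.fn X a (F.val m X x) := rfl

theorem val_vf (F : GTD T) (m : ℤ) (X : T.C) (v : (T.A X).Der) (x : (F.pre m).S X) :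
    F.val m X ((F.pre m).vf X v x) = F.vf X v (F.val m X x) := rfl

theorem pre_isTD (F : GTD T) (m : ℤ) : IsTD T (F.pre m) where
  dmod X :=
    { const := fun c x => F.val_inj ((F.dmod X).const c _)
      fn_add := fun a b x => F.val_inj ((F.dmod X).fn_add a b _)
      fn_mul := fun a b x => F.val_inj ((F.dmod X).fn_mul a b _)
      vf_add := fun v w x => F.val_inj ((F.dmod X).vf_add v w _)
      vf_smul := fun a v x => F.val_inj ((F.dmod X).vf_smul a v _)
      vf_fn := fun v a x => F.val_inj ((F.dmod X).vf_fn v a _)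
      vf_lie := fun v w x => F.val_inj ((F.dmod X).vf_lie v w _) }
  trans X Y φ :=
    { fn := fun a x => F.val_inj ((F.trans X Y φ).fn a _)
      vf := fun w k c v h x => F.val_inj (by
        have h1 := (F.trans X Y φ).vf w k c v h (F.val m X x)
        simp only [map_sub, map_smul, val_fn, val_vf, val_tr, map_sum]
        rw [h1]
        simp only [map_sum]) }
  id X x := F.val_inj (F.id X _)
  comp X Y Z φ ψ x := F.val_inj (F.comp X Y Z φ ψ _)
  cen X φ h x := F.val_inj (F.cen X φ h _)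

/-- The term of degree `m`. -/
def term (F : GTD T) (m : ℤ) : TD T := ⟨F.pre m, F.pre_isTD m⟩

/-- A morphism of representations, given by a family of maps compatible with the structure. -/
def homOf {F F' : GTD T} {m m' : ℤ} (u : ∀ X : T.C, (F.F X).V →ₗ[ℂ] (F'.F X).V)
    (deg : ∀ X x, x ∈ (F.F X).gr m → u X x ∈ (F'.F X).gr m')
    (fn : ∀ (X : T.C) (a : T.R X) (x : (F.F X).V), u X (F.fn X a x) = F'.fn X a (u X x))
    (vf : ∀ (X : T.C) (v : (T.A X).Der) (x : (F.F X).V), u X (F.vf X v x) = F'.vf X v (u X x))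
    (tr : ∀ {X Y : T.C} (φ : X ⟶ Y) (x : (F.F X).V), u Y ((F.tr φ).f x) = (F'.tr φ).f (u X x)) :
    F.term m ⟶ F'.term m' :=
  ObjectProperty.homMk (Paths.liftNatTrans (V := Vx T) (F := (F.pre m).F) (G := (F'.pre m').F)
    (fun X => (ModuleCat.ofHom ((u X).restrict (deg X)) : F.ob m X ⟶ F'.ob m' X))
    (fun {X Y} (e : Arr T X Y) => by
      apply ModuleCat.hom_ext
      apply LinearMap.ext
      intro x
      cases e with
      | tr φ => exact Subtype.ext (tr φ _)
      | fn a => exact Subtype.ext (fn _ a _)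
      | vf v => exact Subtype.ext (vf _ v _)))

theorem hm_homOf {F F' : GTD T} {m m' : ℤ} (u : ∀ X : T.C, (F.F X).V →ₗ[ℂ] (F'.F X).V)
    (deg : ∀ X x, x ∈ (F.F X).gr m → u X x ∈ (F'.F X).gr m')
    (fn : ∀ (X : T.C) (a : T.R X) (x : (F.F X).V), u X (F.fn X a x) = F'.fn X a (u X x))
    (vf : ∀ (X : T.C) (v : (T.A X).Der) (x : (F.F X).V), u X (F.vf X v x) = F'.vf X v (u X x))
    (tr : ∀ {X Y : T.C} (φ : X ⟶ Y) (x : (F.F X).V), u Y ((F.tr φ).f x) = (F'.tr φ).f (u X x))
    (X : T.C) (x : (F.pre m).S X) :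
    F'.val m' X (TD.hm (M := F.term m) (N := F'.term m') (homOf u deg fn vf tr) X x) =
      u X (F.val m X x) := rfl

/-- The complex of (twisted) `D`-modules. -/
def toCx (F : GTD T) : Cx T :=
  { X := F.term
    d := fun i j => if h : i + 1 = j then homOf (fun X => (F.F X).d)
      (fun X x hx => (F.F X).dgr' h.symm hx) F.fn_d F.vf_d (fun φ x => ((F.tr φ).comm x).symm) else 0
    shape := fun i j h => dif_neg h
    d_comp_d' := fun i j k hij hjk => by
      have hij' : i + 1 = j := hij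
      have hjk' : j + 1 = k := hjk
      rw [dif_pos hij', dif_pos hjk']
      apply Br.TD_hom_ext
      intro X x
      exact F.val_inj ((F.F X).dd _) }

end GTD

end

end Vale.Agent.P286.H847
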