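import Vale.Agent.P286.H847.GD

/-!
# Graded differential spaces: filtrations, levels, contractions
-/

namespace Vale.Agent.P286.H847

namespace GD

/-- Exactness from a decreasing filtration which is finite in every degree. -/
theorem Exact.of_filtration (M : GD) (F : ℕ → M.V → Prop)
    (h0 : ∀ x, F 0 x)
    (hz : ∀ m : ℤ, ∃ n, ∀ x ∈ M.gr m, F n x → x = 0)
    (h : ∀ (p : ℕ) (m : ℤ) (x : M.V), x ∈ M.gr m → F p x → M.d x = 0 →
      ∃ y ∈ M.gr (m - 1), F (p + 1) (x - M.d y)) : M.Exact := by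
  intro m x hx hd
  have key : ∀ n : ℕ, ∃ y ∈ M.gr (m - 1), F n (x - M.d y) := by
    intro n
    induction n with
    | zero => exact ⟨0, zero_mem _, h0 _⟩
    | succ n ih =>
      obtain ⟨y, hy, hF⟩ := ih
      have hg : x - M.d y ∈ M.gr m := sub_mem hx (M.dgr' (by ring) hy)
      obtain ⟨z, hz', hF'⟩ := h n m _ hg hF (by rw [map_sub, hd, M.dd, sub_zero])
      exact ⟨y + z, add_mem hy hz', by rwa [map_add, ← sub_sub]⟩
  obtain ⟨n, hn⟩ := hz m
  obtain ⟨y, hy, hF⟩ := key n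
  exact ⟨y, hy, (sub_eq_zero.1 (hn _ (sub_mem hx (M.dgr' (by ring) hy)) hF)).symm⟩

/-- A homomorphism between product totals, lower triangular with quasi-isomorphisms on the
diagonal, is a quasi-isomorphism. -/
theorem Qis.levels {E E' : ℕ → Type} [∀ k, AddCommGroup (E k)] [∀ k, Module ℂ (E k)]
    [∀ k, AddCommGroup (E' k)] [∀ k, Module ℂ (E' k)]
    (D : (∀ k, E k) →ₗ[ℂ] (∀ k, E k)) (δ : ∀ k, E k →ₗ[ℂ] E k)
    (G : ∀ k, ℤ → Submodule ℂ (E k)) (hDD : ∀ v, D (D v) = 0)
    (htri : ∀ (v : ∀ k, E k) (k : ℕ), (∀ j < k, v j = 0) →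
      (∀ j < k, D v j = 0) ∧ D v k = δ k (v k))
    (hdeg : ∀ (v : ∀ k, E k) (m : ℤ), (∀ k, v k ∈ G k m) → ∀ k, D v k ∈ G k (m + 1))
    (D' : (∀ k, E' k) →ₗ[ℂ] (∀ k, E' k)) (δ' : ∀ k, E' k →ₗ[ℂ] E' k)
    (G' : ∀ k, ℤ → Submodule ℂ (E' k)) (hDD' : ∀ v, D' (D' v) = 0)
    (htri' : ∀ (v : ∀ k, E' k) (k : ℕ), (∀ j < k, v j = 0) →
      (∀ j < k, D' v j = 0) ∧ D' v k = δ' k (v k))
    (hdeg' : ∀ (v : ∀ k, E' k) (m : ℤ), (∀ k, v k ∈ G' k m) → ∀ k, D' v k ∈ G' k (m + 1))
    (U : (∀ k, E k) →ₗ[ℂ] (∀ k, E' k)) (υ : ∀ k, E k →ₗ[ℂ] E' k)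
    (hcomm : ∀ v, U (D v) = D' (U v))
    (htriU : ∀ (v : ∀ k, E k) (k : ℕ), (∀ j < k, v j = 0) →
      (∀ j < k, U v j = 0) ∧ U v k = υ k (v k))
    (hdegU : ∀ (v : ∀ k, E k) (m : ℤ), (∀ k, v k ∈ G k m) → ∀ k, U v k ∈ G' k m)
    (hq : ∀ (k : ℕ) (m : ℤ),
      (∀ x ∈ G k m, δ k x = 0 → (∃ y ∈ G' k (m - 1), δ' k y = υ k x) →
        ∃ x' ∈ G k (m - 1), δ k x' = x) ∧
      (∀ y ∈ G' k m, δ' k y = 0 →
        ∃ x ∈ G k m, δ k x = 0 ∧ ∃ y' ∈ G' k (m - 1), δ' k y' = y - υ k x))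
    (m : ℤ) :
    (∀ v : ∀ k, E k, (∀ k, v k ∈ G k m) → D v = 0 →
      (∃ w : ∀ k, E' k, (∀ k, w k ∈ G' k (m - 1)) ∧ D' w = U v) →
      ∃ v' : ∀ k, E k, (∀ k, v' k ∈ G k (m - 1)) ∧ D v' = v) ∧
    (∀ w : ∀ k, E' k, (∀ k, w k ∈ G' k m) → D' w = 0 →
      ∃ v : ∀ k, E k, (∀ k, v k ∈ G k m) ∧ D v = 0 ∧
        ∃ w' : ∀ k, E' k, (∀ k, w' k ∈ G' k (m - 1)) ∧ D' w' = w - U v) := by
  -- the levels as graded differential spaces
  have dd1 : ∀ k (x : E k), δ k (δ k x) = 0 := by
    intro k x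
    have h1 := htri (Pi.single k x) k (fun j hj => by simp [hj.ne])
    have h2 := htri (D (Pi.single k x)) k h1.1
    rw [hDD, h1.2, Pi.single_eq_same] at h2
    exact h2.2.symm
  have dg1 : ∀ k (m : ℤ) (x : E k), x ∈ G k m → δ k x ∈ G k (m + 1) := by
    intro k m x hx
    have h1 := htri (Pi.single k x) k (fun j hj => by simp [hj.ne])
    rw [Pi.single_eq_same] at h1
    rw [← h1.2]
    refine hdeg _ m (fun j => ?_) k
    by_cases h : j = k
    · subst h; simpa using hx
    · simp [h]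
  have dd2 : ∀ k (x : E' k), δ' k (δ' k x) = 0 := by
    intro k x
    have h1 := htri' (Pi.single k x) k (fun j hj => by simp [hj.ne])
    have h2 := htri' (D' (Pi.single k x)) k h1.1
    rw [hDD', h1.2, Pi.single_eq_same] at h2
    exact h2.2.symm
  have dg2 : ∀ k (m : ℤ) (x : E' k), x ∈ G' k m → δ' k x ∈ G' k (m + 1) := by
    intro k m x hx
    have h1 := htri' (Pi.single k x) k (fun j hj => by simp [hj.ne])
    rw [Pi.single_eq_same] at h1
    rw [← h1.2]
    refine hdeg' _ m (fun j => ?_) k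
    by_cases h : j = k
    · subst h; simpa using hx
    · simp [h]
  have cm : ∀ k (x : E k), υ k (δ k x) = δ' k (υ k x) := by
    intro k x
    have h1 := htri (Pi.single k x) k (fun j hj => by simp [hj.ne])
    have h2 := htriU (D (Pi.single k x)) k h1.1
    have h3 := htriU (Pi.single k x) k (fun j hj => by simp [hj.ne])
    have h4 := htri' (U (Pi.single k x)) k h3.1
    rw [Pi.single_eq_same] at h1 h3
    rw [hcomm, h1.2] at h2
    rw [← h2.2, h4.2, h3.2]
  have ug : ∀ k (m : ℤ) (x : E k), x ∈ G k m → υ k x ∈ G' k m := by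
    intro k m x hx
    have h3 := htriU (Pi.single k x) k (fun j hj => by simp [hj.ne])
    rw [Pi.single_eq_same] at h3
    rw [← h3.2]
    refine hdegU _ m (fun j => ?_) k
    by_cases h : j = k
    · subst h; simpa using hx
    · simp [h]
  let L : ℕ → GD := fun k => ⟨E k, δ k, dd1 k, G k, dg1 k⟩
  let L' : ℕ → GD := fun k => ⟨E' k, δ' k, dd2 k, G' k, dg2 k⟩
  let u : ∀ k, Hom (L k) (L' k) := fun k => ⟨υ k, cm k, ug k⟩
  have hqu : ∀ k, Qis (u k) := fun k m => hq k m
  -- the total spaces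
  let T : GD := ⟨∀ k, E k, D, hDD,
    fun m => { carrier := {v | ∀ k, v k ∈ G k m}
               add_mem' := fun ha hb k => add_mem (ha k) (hb k)
               zero_mem' := fun k => zero_mem _
               smul_mem' := fun c x hx k => Submodule.smul_mem _ c (hx k) },
    fun m v hv k => hdeg v m hv k⟩
  let T' : GD := ⟨∀ k, E' k, D', hDD',
    fun m => { carrier := {v | ∀ k, v k ∈ G' k m}
               add_mem' := fun ha hb k => add_mem (ha k) (hb k)
               zero_mem' := fun k => zero_mem _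
               smul_mem' := fun c x hx k => Submodule.smul_mem _ c (hx k) },
    fun m v hv k => hdeg' v m hv k⟩
  let UU : Hom T T' := ⟨U, hcomm, fun m v hv k => hdegU v m hv k⟩
  suffices H : Qis UU from H m
  rw [qis_iff_exact_cone]
  intro m x hx hd
  -- the cone as a total
  let f1 : (∀ k, E' k × E k) →ₗ[ℂ] (∀ k, E' k) :=
    LinearMap.pi fun k => (LinearMap.fst ℂ (E' k) (E k)).comp (LinearMap.proj k)
  let f2 : (∀ k, E' k × E k) →ₗ[ℂ] (∀ k, E k) :=
    LinearMap.pi fun k => (LinearMap.snd ℂ (E' k) (E k)).comp (LinearMap.proj k)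
  let C : (∀ k, E' k × E k) →ₗ[ℂ] (∀ k, E' k × E k) :=
    LinearMap.pi fun k => ((LinearMap.proj k).comp (D'.comp f1 + U.comp f2)).prod
      (-((LinearMap.proj k).comp (D.comp f2)))
  have hC : ∀ v k, C v k = ((D' (fun j => (v j).1) + U (fun j => (v j).2)) k,
        -(D (fun j => (v j).2)) k) := fun _ _ => rfl
  obtain ⟨w, hw, hCw⟩ := exact_levels (E := fun k => E' k × E k) C (fun k => (Cone (u k)).d)
    (fun k m => (Cone (u k)).gr m)
    (by
      intro v
      funext k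
      have e1 : (fun j => (C v j).1) = D' (fun j => (v j).1) + U (fun j => (v j).2) := rfl
      have e2 : (fun j => (C v j).2) = -D (fun j => (v j).2) := rfl
      rw [hC, e1, e2, map_add, map_neg, map_neg, hDD', hDD, ← hcomm, zero_add]
      refine Prod.ext ?_ ?_
      · simp
      · simp)
    (by
      intro v k h
      have h1 : ∀ j < k, (fun j => (v j).1) j = 0 := fun j hj => by simp [h j hj]
      have h2 : ∀ j < k, (fun j => (v j).2) j = 0 := fun j hj => by simp [h j hj]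
      refine ⟨fun j hj => ?_, ?_⟩
      · rw [hC, Pi.add_apply, (htri' _ k h1).1 j hj, (htriU _ k h2).1 j hj,
          (htri _ k h2).1 j hj, add_zero, neg_zero]
        rfl
      · rw [hC, Pi.add_apply, (htri' _ k h1).2, (htriU _ k h2).2, (htri _ k h2).2]
        rfl)
    (by
      intro v m hv k
      refine ⟨?_, ?_⟩
      · exact add_mem (hdeg' _ m (fun k => (hv k).1) k) (hdegU _ (m + 1) (fun k => (hv k).2) k)
      · exact neg_mem (hdeg _ (m + 1) (fun k => (hv k).2) k))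
    (fun k m x hx hd => ((qis_iff_exact_cone (u k)).1 (hqu k)) m x hx hd)
    m (fun k => (x.1 k, x.2 k)) (fun k => ⟨hx.1 k, hx.2 k⟩) (by
      funext k
      have e1 : D' x.1 + U x.2 = 0 := congrArg Prod.fst hd
      have e2 : -(D x.2) = 0 := congrArg Prod.snd hd
      rw [hC]
      refine Prod.ext ?_ ?_
      · exact congrFun e1 k
      · exact congrFun e2 k)
  refine ⟨(((fun k => (w k).1), (fun k => (w k).2)) : (∀ k, E' k) × (∀ k, E k)),
    ⟨fun k => (hw k).1, fun k => ?_⟩, ?_⟩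
  · exact (hw k).2
  · refine Prod.ext ?_ ?_
    · funext k
      exact congrArg Prod.fst (congrFun hCw k)
    · funext k
      exact congrArg Prod.snd (congrFun hCw k)

/-- An exact graded differential space which is the direct sum of its homogeneous parts is
contractible. -/
theorem Exact.exists_contraction (M : GD) (hdec : DirectSum.IsInternal M.gr) (hex : M.Exact) :
    ∃ s : M.V →ₗ[ℂ] M.V, (∀ (m : ℤ), ∀ x ∈ M.gr m, s x ∈ M.gr (m - 1)) ∧
      ∀ x, M.d (s x) + s (M.d x) = x := by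
  classical
  -- cycles
  let Z : ℤ → Submodule ℂ M.V := fun m => M.gr m ⊓ LinearMap.ker M.d
  let dm : ∀ m : ℤ, M.gr (m - 1) →ₗ[ℂ] Z m := fun m =>
    { toFun := fun x => ⟨M.d x.1, M.dgr' (by ring) x.2, M.dd x.1⟩
      map_add' := fun x y => by ext; simp
      map_smul' := fun c x => by ext; simp }
  have hsurj : ∀ m, LinearMap.range (dm m) = ⊤ := by
    intro m
    rw [LinearMap.range_eq_top]
    rintro ⟨z, hz, hdz⟩
    obtain ⟨y, hy, e⟩ := hex m z hz hdz
    exact ⟨⟨y, hy⟩, Subtype.ext e⟩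
  choose r hr using fun m => (dm m).exists_rightInverse_of_surjective (hsurj m)
  have hr' : ∀ m (z : Z m), M.d (r m z : M.V) = z.1 := by
    intro m z
    exact congrArg Subtype.val (LinearMap.congr_fun (hr m) z)
  -- the differential as a map to cycles
  let dc : ∀ m : ℤ, M.gr m →ₗ[ℂ] Z (m + 1) := fun m =>
    { toFun := fun x => ⟨M.d x.1, M.dgr m _ x.2, M.dd x.1⟩
      map_add' := fun x y => by ext; simp
      map_smul' := fun c x => by ext; simp }
  have hcast : ∀ (m : ℤ) (x : M.V), x ∈ M.gr (m + 1 - 1) → x ∈ M.gr m := by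
    intro m x hx
    rwa [add_sub_cancel_right] at hx
  let q : ∀ m : ℤ, M.gr m →ₗ[ℂ] Z m := fun m =>
    { toFun := fun x => ⟨x.1 - (r (m + 1) (dc m x) : M.V), by
        refine ⟨sub_mem x.2 ?_, ?_⟩
        · exact hcast m _ (r (m + 1) (dc m x)).2
        · change M.d _ = 0
          rw [map_sub, hr', sub_eq_zero]
          rfl⟩
      map_add' := fun x y => by
        ext
        simp only [map_add, Submodule.coe_add]
        abel
      map_smul' := fun c x => by
        ext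
        simp only [map_smul, Submodule.coe_smul, RingHom.id_apply, smul_sub] }
  let sm : ∀ m : ℤ, M.gr m →ₗ[ℂ] M.V := fun m =>
    (M.gr (m - 1)).subtype.comp ((r m).comp (q m))
  let e := LinearEquiv.ofBijective (DirectSum.coeLinearMap M.gr) hdec
  let s : M.V →ₗ[ℂ] M.V := (DirectSum.toModule ℂ ℤ M.V sm).comp e.symm.toLinearMap
  have hs : ∀ (m : ℤ) (x : M.gr m), s x.1 = sm m x := by
    intro m x
    have h1 : e (DirectSum.lof ℂ ℤ (fun m => M.gr m) m x) = x.1 :=
      DirectSum.coeLinearMap_lof M.gr m x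
    have h2 : e.symm x.1 = DirectSum.lof ℂ ℤ (fun m => M.gr m) m x := by
      rw [← h1, LinearEquiv.symm_apply_apply]
    change DirectSum.toModule ℂ ℤ M.V sm (e.symm x.1) = _
    rw [h2, DirectSum.toModule_lof]
  refine ⟨s, ?_, ?_⟩
  · intro m x hx
    rw [hs m ⟨x, hx⟩]
    exact (r m (q m ⟨x, hx⟩)).2
  · have key : ∀ (m : ℤ) (x : M.gr m), M.d (s x.1) + s (M.d x.1) = x.1 := by
      intro m x
      have h1 : M.d (s x.1) = x.1 - (r (m + 1) (dc m x) : M.V) := by
        rw [hs m x]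
        exact hr' m (q m x)
      have h2 : s (M.d x.1) = (r (m + 1) (dc m x) : M.V) := by
        rw [hs (m + 1) ⟨M.d x.1, M.dgr m _ x.2⟩]
        have h3 : q (m + 1) ⟨M.d x.1, M.dgr m _ x.2⟩ = dc m x := by
          ext
          change M.d x.1 - (r (m + 1 + 1) (dc (m + 1) ⟨M.d x.1, M.dgr m _ x.2⟩) : M.V) = M.d x.1
          have h4 : dc (m + 1) ⟨M.d x.1, M.dgr m _ x.2⟩ = 0 := by
            ext
            exact M.dd x.1
          rw [h4, map_zero]
          simp
        change (r (m + 1) (q (m + 1) ⟨M.d x.1, M.dgr m _ x.2⟩) : M.V) = _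
        rw [h3]
      rw [h1, h2, sub_add_cancel]
    intro x
    obtain ⟨y, rfl⟩ := hdec.2 x
    induction y using DirectSum.induction_on with
    | zero => simp
    | of m y =>
      rw [DirectSum.coeAddMonoidHom_of]
      exact key m y
    | add a b ha hb =>
      rw [map_add, map_add, map_add, map_add, map_add]
      rw [← ha, ← hb]
      simp only [ha, hb]
      rw [add_add_add_comm, ha, hb]

end GD

end Vale.Agent.P286.H847
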