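import Vale.Agent.P286.H847.GD2

/-!
# Tensor products of graded differential spaces

The left factor has a sign operator `sg`; the differential of `E ⊗ F` is `d ⊗ 1 + sg ⊗ d`.
-/

namespace Vale.Agent.P286.H847

open TensorProduct

/-- A graded differential space with a sign operator. -/
structure SGD extends GD where
  sg : V →ₗ[ℂ] V
  sg_sg : ∀ x, sg (sg x) = x
  sg_d : ∀ x, sg (d x) = - d (sg x)
  sg_gr : ∀ (m : ℤ) (x : V), x ∈ gr m → sg x = (m.negOnePow : ℤ) • x

namespace SGD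

theorem sg_mem (E : SGD) {m : ℤ} {x : E.V} (h : x ∈ E.gr m) : E.sg x ∈ E.gr m := by
  rw [E.sg_gr m x h]
  exact zsmul_mem h _

theorem sg_odd (E : SGD) {m : ℤ} {x : E.V} (h : x ∈ E.gr m) (hm : Odd m) : E.sg x = -x := by
  rw [E.sg_gr m x h, Int.negOnePow_odd m hm]
  simp

theorem sg_even (E : SGD) {m : ℤ} {x : E.V} (h : x ∈ E.gr m) (hm : Even m) : E.sg x = x := by
  rw [E.sg_gr m x h, Int.negOnePow_even m hm]
  simp

/-- The homogeneous part of degree `m` of the tensor product. -/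
def tgr (E F : GD) (m : ℤ) : Submodule ℂ (E.V ⊗[ℂ] F.V) :=
  Submodule.span ℂ {z | ∃ (i j : ℤ) (x : E.V) (y : F.V),
    i + j = m ∧ x ∈ E.gr i ∧ y ∈ F.gr j ∧ z = x ⊗ₜ[ℂ] y}

theorem tmul_mem {E F : GD} {i j m : ℤ} (h : i + j = m) {x : E.V} {y : F.V} (hx : x ∈ E.gr i)
    (hy : y ∈ F.gr j) : x ⊗ₜ[ℂ] y ∈ tgr E F m :=
  Submodule.subset_span ⟨i, j, x, y, h, hx, hy, rfl⟩

theorem tgr_le {E F : GD} {m : ℤ} {P : Submodule ℂ (E.V ⊗[ℂ] F.V)}
    (h : ∀ (i j : ℤ) (x : E.V) (y : F.V), i + j = m → x ∈ E.gr i → y ∈ F.gr j →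
      x ⊗ₜ[ℂ] y ∈ P) : tgr E F m ≤ P := by
  refine Submodule.span_le.2 ?_
  rintro z ⟨i, j, x, y, h1, hx, hy, rfl⟩
  exact h i j x y h1 hx hy

theorem map_tgr {E F E' F' : GD} {m m' : ℤ} (T : E.V ⊗[ℂ] F.V →ₗ[ℂ] E'.V ⊗[ℂ] F'.V)
    (h : ∀ (i j : ℤ) (x : E.V) (y : F.V), i + j = m → x ∈ E.gr i → y ∈ F.gr j →
      T (x ⊗ₜ[ℂ] y) ∈ tgr E' F' m') {z : E.V ⊗[ℂ] F.V} (hz : z ∈ tgr E F m) :
    T z ∈ tgr E' F' m' := by
  have : tgr E F m ≤ (tgr E' F' m').comap T := tgr_le h
  exact this hz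

/-- The differential of the tensor product. -/
noncomputable def td (E : SGD) (F : GD) : E.V ⊗[ℂ] F.V →ₗ[ℂ] E.V ⊗[ℂ] F.V :=
  TensorProduct.map E.d LinearMap.id + TensorProduct.map E.sg F.d

theorem td_tmul (E : SGD) (F : GD) (x : E.V) (y : F.V) :
    td E F (x ⊗ₜ[ℂ] y) = E.d x ⊗ₜ[ℂ] y + E.sg x ⊗ₜ[ℂ] F.d y := rfl

/-- The tensor product. -/
noncomputable abbrev tens (E : SGD) (F : GD) : GD where
  V := E.V ⊗[ℂ] F.V
  d := td E F
  dd z := by
    induction z with
    | zero => simp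
    | tmul x y =>
      rw [td_tmul, map_add, td_tmul, td_tmul, E.dd, F.dd, E.sg_d, zero_tmul, tmul_zero,
        neg_tmul]
      abel
    | add a b ha hb => rw [map_add, map_add, ha, hb, add_zero]
  gr := tgr E.toGD F
  dgr m z hz := by
    refine map_tgr (T := td E F) ?_ hz
    intro i j x y hij hx hy
    rw [td_tmul]
    exact add_mem (tmul_mem (by rw [← hij]; ring) (E.dgr i x hx) hy)
      (tmul_mem (by rw [← hij]; ring) (E.sg_mem hx) (F.dgr j y hy))

/-- The tensor product of two graded differential spaces with sign operators. -/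
noncomputable abbrev stens (E F : SGD) : SGD where
  toGD := tens E F.toGD
  sg := TensorProduct.map E.sg F.sg
  sg_sg z := by
    change E.V ⊗[ℂ] F.V at z
    change TensorProduct.map E.sg F.sg (TensorProduct.map E.sg F.sg z) = z
    induction z using TensorProduct.induction_on with
    | zero => simp
    | tmul x y => rw [map_tmul, map_tmul, E.sg_sg, F.sg_sg]
    | add a b ha hb => rw [map_add, map_add, ha, hb]
  sg_d z := by
    change E.V ⊗[ℂ] F.V at z
    change TensorProduct.map E.sg F.sg (td E F.toGD z) =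
      - td E F.toGD (TensorProduct.map E.sg F.sg z)
    induction z using TensorProduct.induction_on with
    | zero => simp
    | tmul x y =>
      rw [td_tmul, map_add, map_tmul, map_tmul, map_tmul, td_tmul, E.sg_d, F.sg_d, neg_tmul,
        tmul_neg]
      abel
    | add a b ha hb => rw [map_add, map_add, ha, hb, map_add, map_add]; abel
  sg_gr m z hz := by
    have h : tgr E.toGD F.toGD m ≤ LinearMap.ker (TensorProduct.map E.sg F.sg -
        ((m.negOnePow : ℤ) : ℂ) • LinearMap.id) := by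
      refine tgr_le fun i j x y hij hx hy => ?_
      rw [LinearMap.mem_ker, LinearMap.sub_apply, map_tmul, E.sg_gr i x hx, F.sg_gr j y hy,
        LinearMap.smul_apply, LinearMap.id_apply, ← hij, Int.negOnePow_add, Units.val_mul,
        ← Int.cast_smul_eq_zsmul ℂ, ← Int.cast_smul_eq_zsmul ℂ, smul_tmul_smul, Int.cast_mul,
        sub_self]
    have h2 := h hz
    rw [LinearMap.mem_ker, LinearMap.sub_apply, sub_eq_zero, LinearMap.smul_apply,
      LinearMap.id_apply, Int.cast_smul_eq_zsmul] at h2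
    exact h2

/-- Compatibility with the sign operators. -/
def SgC {E E' : SGD} (u : E.V →ₗ[ℂ] E'.V) : Prop := ∀ x, u (E.sg x) = E'.sg (u x)

/-- The tensor product of morphisms. -/
noncomputable def tmap {E E' : SGD} {F F' : GD} (u : GD.Hom E.toGD E'.toGD) (hu : SgC u.f)
    (v : GD.Hom F F') : GD.Hom (tens E F) (tens E' F') where
  f := TensorProduct.map u.f v.f
  comm z := by
    change E.V ⊗[ℂ] F.V at z
    change TensorProduct.map u.f v.f (td E F z) = td E' F' (TensorProduct.map u.f v.f z)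
    induction z using TensorProduct.induction_on with
    | zero => simp
    | tmul x y =>
      rw [td_tmul, map_add, map_tmul, map_tmul, map_tmul, td_tmul, u.comm, v.comm, hu]
    | add a b ha hb => rw [map_add, map_add, ha, hb, map_add, map_add]
  deg m z hz := by
    refine map_tgr (T := TensorProduct.map u.f v.f) ?_ hz
    intro i j x y hij hx hy
    exact tmul_mem hij (u.deg i x hx) (v.deg j y hy)

theorem tmap_tmul {E E' : SGD} {F F' : GD} (u : GD.Hom E.toGD E'.toGD) (hu : SgC u.f)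
    (v : GD.Hom F F') (x : E.V) (y : F.V) :
    (tmap u hu v).f (x ⊗ₜ[ℂ] y) = u.f x ⊗ₜ[ℂ] v.f y := rfl

end SGD

end Vale.Agent.P286.H847
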