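import Mathlib

/-!
# The algebra `Wk`: the Weil algebra of `gl_m` with `n` more odd generators

`Wk I n` is the tensor product of the exterior algebra on the generators `θ_ij` (`i j : I`) and
`ξ_t` (`t : Fin n`) and the polynomial algebra on the `F_ij`.  The differential is the odd
derivation with `dθ = F - θθ`, `dF = Fθ - θF`, `dξ_t = y_t = e_{2(t+1)}(F)`.
-/

namespace Vale.Agent.P286.H847

open TensorProduct Matrix

noncomputable section

variable (I : Type) [Fintype I] [DecidableEq I] (n : ℕ)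

/-- The odd generators. -/
abbrev Gn : Type := (I × I) ⊕ Fin n

/-- The exterior algebra. -/
abbrev Lm : Type := ExteriorAlgebra ℂ (Gn I n → ℂ)

/-- The polynomial algebra. -/
abbrev Pl : Type := MvPolynomial (I × I) ℂ

/-- The algebra. -/
abbrev Wk : Type := Lm I n ⊗[ℂ] Pl I

namespace Wk

/-- The exterior algebra in `Wk`. -/
def inL : Lm I n →ₐ[ℂ] Wk I n := Algebra.TensorProduct.includeLeft

/-- The polynomial algebra in `Wk`. -/
def inP : Pl I →ₐ[ℂ] Wk I n := Algebra.TensorProduct.includeRight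

/-- The odd generators. -/
def gn (a : Gn I n) : Wk I n := inL I n (ExteriorAlgebra.ι ℂ (Pi.single a 1))

/-- The matrix `θ`. -/
def th : Matrix I I (Wk I n) := fun i j => gn I n (Sum.inl (i, j))

/-- The generators `ξ`. -/
def xi (t : Fin n) : Wk I n := gn I n (Sum.inr t)

/-- The generic matrix. -/
abbrev Fp : Matrix I I (Pl I) := Matrix.mvPolynomialX I I ℂ

/-- The matrix `F`. -/
def Fm : Matrix I I (Wk I n) := (Fp I).map (inP I n)

/-- The coefficient of degree `k` in the entries of the characteristic polynomial of the generic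
matrix. -/
def ep (k : ℕ) : Pl I :=
  if k ≤ Fintype.card I then (Fp I).charpoly.coeff (Fintype.card I - k) else 0

/-- The elements `y_t`. -/
def y (t : Fin n) : Wk I n := inP I n (ep I (2 * ((t : ℕ) + 1)))

/-- The sign automorphism. -/
def sgA : Wk I n →ₐ[ℂ] Wk I n :=
  Algebra.TensorProduct.map CliffordAlgebra.involute (AlgHom.id ℂ (Pl I))

/-- The sign automorphism, as a linear map. -/
def sg : Wk I n →ₗ[ℂ] Wk I n := (sgA I n).toLinearMap

/-- The derivative with respect to the odd generator `a`. -/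
def ct (a : Gn I n) : Wk I n →ₗ[ℂ] Wk I n :=
  LinearMap.rTensor (Pl I) (CliffordAlgebra.contractLeft (LinearMap.proj a))

/-- The derivative with respect to the even generator `s`. -/
def pd (s : I × I) : Wk I n →ₗ[ℂ] Wk I n :=
  LinearMap.lTensor (Lm I n) (MvPolynomial.pderiv s : Derivation ℂ (Pl I) (Pl I)).toLinearMap

/-- The differential of the odd generators. -/
def dgn : Gn I n → Wk I n :=
  Sum.elim (fun p => (Fm I n - th I n * th I n) p.1 p.2) (y I n)

/-- The differential of the even generators. -/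
def dF (s : I × I) : Wk I n := (Fm I n * th I n - th I n * Fm I n) s.1 s.2

/-- The differential. -/
def d : Wk I n →ₗ[ℂ] Wk I n :=
  ∑ a, LinearMap.mulLeft ℂ (dgn I n a) ∘ₗ ct I n a +
    ∑ s, LinearMap.mulLeft ℂ (dF I n s) ∘ₗ pd I n s

/-- The degrees of the odd generators. -/
def dg : Gn I n → ℤ := Sum.elim (fun _ => 1) (fun t => 4 * (t : ℤ) + 3)

/-- The derivation which is the degree. -/
def Nm : Wk I n →ₗ[ℂ] Wk I n :=
  ∑ a, ((dg I n a : ℤ) : ℂ) • (LinearMap.mulLeft ℂ (gn I n a) ∘ₗ ct I n a) +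
    ∑ s : I × I, (2 : ℂ) • (LinearMap.mulLeft ℂ (Fm I n s.1 s.2) ∘ₗ pd I n s)

/-- The homogeneous elements of degree `m`. -/
def gr (m : ℤ) : Submodule ℂ (Wk I n) := LinearMap.ker (Nm I n - ((m : ℤ) : ℂ) • LinearMap.id)

/-- The derivative with respect to `ξ_t`. -/
def e (t : Fin n) : Wk I n →ₗ[ℂ] Wk I n := ct I n (Sum.inr t)

/-- The augmentation. -/
def eps : Wk I n →ₐ[ℂ] ℂ :=
  Algebra.TensorProduct.lift (ExteriorAlgebra.algebraMapInv (R := ℂ) (M := Gn I n → ℂ))
    (MvPolynomial.aeval (fun _ => (0 : ℂ))) (fun _ _ => Commute.all _ _)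

/-- The homomorphism `ξ ↦ 0` to the algebra without `ξ`. -/
def rs : Wk I n →ₐ[ℂ] Wk I 0 :=
  Algebra.TensorProduct.map
    (ExteriorAlgebra.map (LinearMap.pi fun a : Gn I 0 =>
      LinearMap.proj (Sum.elim (fun p => (Sum.inl p : Gn I n)) (fun t => t.elim0) a)))
    (AlgHom.id ℂ (Pl I))

/-- The inclusion of the algebra without `ξ`. -/
def im : Wk I 0 →ₐ[ℂ] Wk I n :=
  Algebra.TensorProduct.map
    (ExteriorAlgebra.map (LinearMap.pi fun a : Gn I n =>
      Sum.elim (fun p => LinearMap.proj (Sum.inl p : Gn I 0)) (fun _ => 0) a))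
    (AlgHom.id ℂ (Pl I))

end Wk

end

end Vale.Agent.P286.H847
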