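import Vale.Agent.P286.H847.Brg
import Vale.Agent.P286.H353.GtC

/-!
# The DG functor from families of graded differential spaces to complexes
-/

namespace Vale.Agent.P286.H847

open CategoryTheory CochainComplex.HomComplex
open Vale.Agent.P286.St Vale.Agent.P286.H353

noncomputable section

variable {T : TSite}

theorem toCo_gdl {F F' : GTD T} (m n : ℤ) (α : GTD.Coch F F' m) :
    GTD.toCo n (gdl m n α) = δ m n (GTD.toCo m α) := by
  by_cases h : m + 1 = n
  · rw [gdl_eq h, GTD.toCo_dl h]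
  · rw [gdl_ne h, δ_shape m n h, map_zero]

/-- The DG functor to complexes. -/
def toD (T : TSite) : DGF (gtc T) (cxc T) where
  obj F := GTD.cc F
  map n := GTD.toCo n
  map_one F := GTD.toCo_one F
  map_comp h α β := GTD.toCo_cmp h α β
  map_d m n α := toCo_gdl m n α

/-- The family of the object. -/
def gt (F : Z0 (gtc T)) : GTD T := F

/-- The cochain of a closed morphism. -/
def gz {F F' : Z0 (gtc T)} (a : F ⟶ F') : GTD.Coch (gt F) (gt F') 0 := zf a

theorem gz_cl {F F' : Z0 (gtc T)} (a : F ⟶ F') : (gz a).dl (zero_add 1) = 0 :=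
  (gdl_eq (zero_add 1) (gz a)).symm.trans (zf_cl a)

/-- The morphism over a test object given by a closed morphism. -/
def gh {F F' : Z0 (gtc T)} (a : F ⟶ F') (X : T.C) : GD.Hom ((gt F).F X) ((gt F').F X) :=
  (gz a).hom (gz_cl a) X

/-- The quasi-isomorphisms. -/
def gqis (T : TSite) : MorphismProperty (Z0 (gtc T)) := fun _ _ a => ∀ X, GD.Qis (gh a X)

/-- The quasi-isomorphisms are those of the complexes. -/
theorem xqis_toD {F F' : Z0 (gtc T)} (a : F ⟶ F') : xqis T ((toD T).z0.map a) ↔ gqis T a := by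
  have h : zhom ((toD T).z0.map a) = (gz a).mor (gz_cl a) :=
    Cochain.ofHom_injective ((ofHom_zhom _).trans ((gz a).ofHom_mor (gz_cl a)).symm)
  unfold xqis
  rw [h]
  exact GTD.qis_mor (gz a) (gz_cl a)

/-- A closed morphism given by morphisms over the test objects. -/
def gmk {F F' : GTD T} (u : ∀ X, GD.Hom (F.F X) (F'.F X))
    (fn : ∀ (X : T.C) (a : T.R X) (x : (F.F X).V), (u X).f (F.fn X a x) = F'.fn X a ((u X).f x))
    (vf : ∀ (X : T.C) (v : (T.A X).Der) (x : (F.F X).V),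
      (u X).f (F.vf X v x) = F'.vf X v ((u X).f x))
    (tr : ∀ {X Y : T.C} (φ : X ⟶ Y) (x : (F.F X).V),
      (u Y).f ((F.tr φ).f x) = (F'.tr φ).f ((u X).f x)) :
    zo (C := gtc T) F ⟶ zo (C := gtc T) F' :=
  zmk (C := gtc T) (X := zo (C := gtc T) F) (Y := zo (C := gtc T) F')
    (⟨fun X => (u X).f, fun X m x hx => by
      rw [add_zero]
      exact (u X).deg m x hx, fn, vf, tr⟩ : GTD.Coch F F' 0)
    ((gdl_eq (zero_add 1) _).trans (GTD.Coch.cl_iff.2 (fun X x => (u X).comm x)))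

theorem gh_gmk {F F' : GTD T} (u : ∀ X, GD.Hom (F.F X) (F'.F X))
    (fn : ∀ (X : T.C) (a : T.R X) (x : (F.F X).V), (u X).f (F.fn X a x) = F'.fn X a ((u X).f x))
    (vf : ∀ (X : T.C) (v : (T.A X).Der) (x : (F.F X).V),
      (u X).f (F.vf X v x) = F'.vf X v ((u X).f x))
    (tr : ∀ {X Y : T.C} (φ : X ⟶ Y) (x : (F.F X).V),
      (u Y).f ((F.tr φ).f x) = (F'.tr φ).f ((u X).f x)) (X : T.C) :
    gh (gmk u fn vf tr) X = u X := rfl

theorem gqis_gmk {F F' : GTD T} (u : ∀ X, GD.Hom (F.F X) (F'.F X))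
    (fn : ∀ (X : T.C) (a : T.R X) (x : (F.F X).V), (u X).f (F.fn X a x) = F'.fn X a ((u X).f x))
    (vf : ∀ (X : T.C) (v : (T.A X).Der) (x : (F.F X).V),
      (u X).f (F.vf X v x) = F'.vf X v ((u X).f x))
    (tr : ∀ {X Y : T.C} (φ : X ⟶ Y) (x : (F.F X).V),
      (u Y).f ((F.tr φ).f x) = (F'.tr φ).f ((u X).f x)) (h : ∀ X, GD.Qis (u X)) :
    gqis T (gmk u fn vf tr) := h

end

end Vale.Agent.P286.H847
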