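import Vale.Agent.P286.H847.Gtd
import Vale.Agent.P286.H353.DGCrit

/-!
# The complexes of `D`-modules defined by families of graded differential spaces
-/

namespace Vale.Agent.P286.H847

open CategoryTheory St CochainComplex.HomComplex

noncomputable section

namespace GTD

variable {T : TSite} {F F' F'' : GTD T}

/-- The complex, in Mathlib's terms. -/
def cc (F : GTD T) : CochainComplex (TD T) ℤ := toCx F

theorem homOf_ext {m m' : ℤ} {u v : F.term m ⟶ F'.term m'}
    (h : ∀ (X : T.C) (x : (F.pre m).S X), F'.val m' X (TD.hm (M := F.term m) (N := F'.term m') u X x) =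
      F'.val m' X (TD.hm (M := F.term m) (N := F'.term m') v X x)) : u = v := by
  apply Br.TD_hom_ext
  intro X x
  exact F'.val_inj (h X x)

/-- The morphism from the term of degree `p` to the term of degree `q = p + n` defined by a
cochain. -/
def coV {n : ℤ} (z : Coch F F' n) (p q : ℤ) (h : p + n = q) : F.term p ⟶ F'.term q :=
  homOf z.f (fun X x hx => h ▸ z.deg X p x hx) z.fn z.vf z.tr

theorem val_coV {n : ℤ} (z : Coch F F' n) (p q : ℤ) (h : p + n = q) (X : T.C)
    (x : (F.pre p).S X) : F'.val q X (TD.hm (M := F.term p) (N := F'.term q) (coV z p q h) X x) =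
      z.f X (F.val p X x) := rfl

/-- The cochain defined by a cochain. -/
def toCo (n : ℤ) : Coch F F' n →ₗ[ℂ] Cochain (cc F) (cc F') n where
  toFun z := Cochain.mk fun p q h => coV z p q h
  map_add' z w := by
    ext p q h
    apply homOf_ext
    intro X x
    rfl
  map_smul' c z := by
    ext p q h
    apply homOf_ext
    intro X x
    rfl

theorem toCo_v {n : ℤ} (z : Coch F F' n) (p q : ℤ) (h : p + n = q) :
    (toCo n z).v p q h = coV z p q h := rfl

theorem toCo_one (F : GTD T) : toCo 0 (Coch.one F) = Cochain.ofHom (𝟙 (cc F)) := by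
  ext p
  rw [Cochain.ofHom_v]
  apply homOf_ext
  intro X x
  rfl

theorem toCo_cmp {m n p : ℤ} (h : m + n = p) (z : Coch F F' m) (w : Coch F' F'' n) :
    toCo p (z.cmp w h) = (toCo m z).comp (toCo n w) h := by
  ext i j hij
  rw [Cochain.comp_v _ _ h i (i + m) j rfl (by omega)]
  apply homOf_ext
  intro X x
  rfl

theorem cc_d (F : GTD T) (i j : ℤ) (h : i + 1 = j) : (cc F).d i j =
    homOf (fun X => (F.F X).d) (fun X _ hx => (F.F X).dgr' h.symm hx) F.fn_d F.vf_d
      (fun φ x => ((F.tr φ).comm x).symm) := dif_pos h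

theorem toCo_dl {n p : ℤ} (h : n + 1 = p) (z : Coch F F' n) :
    toCo p (z.dl h) = δ n p (toCo n z) := by
  subst h
  ext i j hij
  rw [δ_v n (n + 1) rfl _ i j hij (i + n) (i + 1) (by omega) rfl, cc_d F' (i + n) j (by omega),
    cc_d F i (i + 1) rfl]
  rcases Int.even_or_odd n with hn | hn
  · rw [Int.negOnePow_odd _ hn.add_one, Units.neg_smul, one_smul]
    apply homOf_ext
    intro X x
    change (F'.F X).d (z.f X (F.val i X x)) - (n.negOnePow : ℤ) • z.f X ((F.F X).d (F.val i X x)) =
      (F'.F X).d (z.f X (F.val i X x)) + -(z.f X ((F.F X).d (F.val i X x)))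
    rw [Int.negOnePow_even n hn, Units.val_one, one_smul, sub_eq_add_neg]
  · rw [Int.negOnePow_even _ hn.add_one, one_smul]
    apply homOf_ext
    intro X x
    change (F'.F X).d (z.f X (F.val i X x)) - (n.negOnePow : ℤ) • z.f X ((F.F X).d (F.val i X x)) =
      (F'.F X).d (z.f X (F.val i X x)) + z.f X ((F.F X).d (F.val i X x))
    rw [Int.negOnePow_odd n hn, Units.val_neg, Units.val_one, neg_smul, one_smul, sub_neg_eq_add]

/-- The differential of degree zero cochains vanishes. -/
theorem Coch.cl_iff {z : Coch F F' 0} : z.dl (zero_add 1) = 0 ↔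
    ∀ (X : T.C) (x : (F.F X).V), z.f X ((F.F X).d x) = (F'.F X).d (z.f X x) := by
  have h1 : ∀ (X : T.C) (x : (F.F X).V), (z.dl (zero_add 1)).f X x =
      (F'.F X).d (z.f X x) - z.f X ((F.F X).d x) := by
    intro X x
    change (F'.F X).d (z.f X x) - ((0 : ℤ).negOnePow : ℤ) • z.f X ((F.F X).d x) = _
    rw [Int.negOnePow_zero, Units.val_one, one_smul]
  constructor
  · intro h X x
    have h2 := h1 X x
    rw [h] at h2
    exact (sub_eq_zero.1 h2.symm).symm
  · intro h
    apply Coch.ext'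
    intro X x
    rw [h1, h, sub_self]
    rfl

/-- The morphism over a test object given by a closed cochain of degree zero. -/
def Coch.hom (z : Coch F F' 0) (h : z.dl (zero_add 1) = 0) (X : T.C) :
    GD.Hom (F.F X) (F'.F X) :=
  ⟨z.f X, Coch.cl_iff.1 h X, fun m x hx => by
    have := z.deg X m x hx
    rwa [add_zero] at this⟩

theorem Coch.hom_f (z : Coch F F' 0) (h : z.dl (zero_add 1) = 0) (X : T.C) :
    (z.hom h X).f = z.f X := rfl

/-- The morphism of complexes given by a closed cochain of degree zero. -/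
def Coch.mor (z : Coch F F' 0) (h : z.dl (zero_add 1) = 0) : cc F ⟶ cc F' :=
  Cocycle.homOf (Cocycle.mk (toCo 0 z) 1 (zero_add 1) (by
    rw [← toCo_dl (zero_add 1), h, map_zero]))

theorem Coch.ofHom_mor (z : Coch F F' 0) (h : z.dl (zero_add 1) = 0) :
    Cochain.ofHom (z.mor h) = toCo 0 z := Cocycle.cochain_ofHom_homOf_eq_coe _

theorem Coch.mor_f (z : Coch F F' 0) (h : z.dl (zero_add 1) = 0) (p : ℤ) :
    (z.mor h).f p = coV z p p (add_zero p) := by
  have h1 := Coch.ofHom_mor z h
  have h2 := congrArg (fun c => c.v p p (add_zero p)) h1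
  simp only [Cochain.ofHom_v] at h2
  exact h2

/-- The morphism of complexes given by a closed cochain of degree zero. -/
def toMor (z : Coch F F' 0) (h : z.dl (zero_add 1) = 0) : toCx F ⟶ toCx F' := z.mor h

/-- The differential of the complex of sections. -/
def dS (F : GTD T) (X : T.C) (i j : ℤ) : (F.pre i).S X → (F.pre j).S X := (toCx F).d X i j

/-- The map on sections. -/
def hS (z : Coch F F' 0) (h : z.dl (zero_add 1) = 0) (X : T.C) (p : ℤ) :
    (F.pre p).S X → (F'.pre p).S X := Cx.hm (toMor z h) X p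

theorem val_hS (z : Coch F F' 0) (h : z.dl (zero_add 1) = 0) (X : T.C) (p : ℤ)
    (x : (F.pre p).S X) : F'.val p X (hS z h X p x) = z.f X (F.val p X x) := by
  change F'.val p X (TD.hm (M := F.term p) (N := F'.term p) ((z.mor h).f p) X x) = _
  rw [Coch.mor_f z h p]
  rfl

theorem val_dS (F : GTD T) (X : T.C) (i j : ℤ) (h : i + 1 = j) (x : (F.pre i).S X) :
    F.val j X (dS F X i j x) = (F.F X).d (F.val i X x) := by
  change F.val j X (TD.hm (M := F.term i) (N := F.term j) ((cc F).d i j) X x) = _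
  rw [cc_d F i j h]
  rfl

theorem hiso_iff (z : Coch F F' 0) (h : z.dl (zero_add 1) = 0) (X : T.C) (i j k : ℤ)
    (hij : i + 1 = j) (hjk : j + 1 = k) :
    St.HIso (dS F X i j) (dS F X j k) (dS F' X i j) (dS F' X j k) (hS z h X j) ↔
    (∀ x ∈ (F.F X).gr j, (F.F X).d x = 0 → (∃ y ∈ (F'.F X).gr (j - 1), (F'.F X).d y = z.f X x) →
      ∃ x' ∈ (F.F X).gr (j - 1), (F.F X).d x' = x) ∧
    (∀ y ∈ (F'.F X).gr j, (F'.F X).d y = 0 →
      ∃ x ∈ (F.F X).gr j, (F.F X).d x = 0 ∧ ∃ y' ∈ (F'.F X).gr (j - 1),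
        (F'.F X).d y' = y - z.f X x) := by
  have hi : j - 1 = i := by omega
  rw [hi]
  constructor
  · rintro ⟨h1, h2⟩
    refine ⟨?_, ?_⟩
    · rintro x hx hd ⟨y, hy, e⟩
      obtain ⟨x', hx'⟩ := h1 (F.el x hx) (F.val_inj (by
        rw [val_dS F X j k hjk, val_el, hd, map_zero])) ⟨F'.el y hy, F'.val_inj (by
        rw [val_dS F' X i j hij, val_el, e, val_hS, val_el])⟩
      refine ⟨F.val i X x', F.val_mem _ _ _, ?_⟩
      rw [← val_dS F X i j hij, hx', val_el]
    · intro y hy hd
      obtain ⟨x, hx, y', e⟩ := h2 (F'.el y hy) (F'.val_inj (by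
        rw [val_dS F' X j k hjk, val_el, hd, map_zero]))
      refine ⟨F.val j X x, F.val_mem _ _ _, ?_, F'.val i X y', F'.val_mem _ _ _, ?_⟩
      · rw [← val_dS F X j k hjk, hx, map_zero]
      · rw [← val_dS F' X i j hij, e, map_sub, val_el, val_hS]
  · rintro ⟨h1, h2⟩
    refine ⟨?_, ?_⟩
    · rintro x hd ⟨y, e⟩
      obtain ⟨x', hx', e'⟩ := h1 (F.val j X x) (F.val_mem _ _ _) (by
        rw [← val_dS F X j k hjk, hd, map_zero]) ⟨F'.val i X y, F'.val_mem _ _ _, by
          rw [← val_dS F' X i j hij, e, val_hS]⟩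
      refine ⟨F.el x' hx', F.val_inj ?_⟩
      rw [val_dS F X i j hij, val_el, e']
    · intro y hd
      obtain ⟨x, hx, hdx, y', hy', e⟩ := h2 (F'.val j X y) (F'.val_mem _ _ _) (by
        rw [← val_dS F' X j k hjk, hd, map_zero])
      refine ⟨F.el x hx, F.val_inj (by rw [val_dS F X j k hjk, val_el, hdx, map_zero]),
        F'.el y' hy', F'.val_inj ?_⟩
      rw [val_dS F' X i j hij, val_el, e, map_sub, val_hS, val_el]

/-- The quasi-isomorphisms. -/
theorem qis_mor (z : Coch F F' 0) (h : z.dl (zero_add 1) = 0) :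
    Cx.qis T (toMor z h) ↔ ∀ X, GD.Qis (z.hom h X) := by
  constructor
  · intro H X m
    exact (hiso_iff z h X (m - 1) m (m + 1) (by ring) rfl).1
      (H X (m - 1) m (m + 1) (by ring) rfl)
  · intro H X i j k hij hjk
    exact (hiso_iff z h X i j k hij hjk).2 (H X j)

end GTD

end

end Vale.Agent.P286.H847
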